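import Vale.Agent.N015.End

namespace Vale.Agent.Results.P015.A0EffectiveMoat

open Vale.Agent.P015

/-- **Effective bounds for Gaussian moats.**
(1) There is an absolute constant `C` such that for all `D ≥ 2`: every component of the graph
`G_D` on the Gaussian primes has at most `exp (exp (D ^ C))` vertices, and every sequence of
`k + 1` distinct Gaussian integers with steps at most `D` and `k ≥ exp (exp (D ^ C))` meets all
residue classes modulo some Gaussian prime of norm at most `exp (D ^ C)`.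
(2) There is `c > 0` such that no infinite sequence of distinct Gaussian primes has its step from
`γ n` at most the `c`-th power of `log log (|γ n| + 16)` for all `n`. -/
theorem result :
    (∃ C : ℕ, ∀ D : ℝ, 2 ≤ D →
      (∀ K : (moatGraph D).ConnectedComponent,
        K.supp.encard ≤ ((⌊Real.exp (Real.exp (D ^ C))⌋₊ : ℕ) : ℕ∞)) ∧
      ∀ k : ℕ, Real.exp (Real.exp (D ^ C)) ≤ k → ∀ f : ℕ → GaussianInt,
        (∀ i ≤ k, ∀ j ≤ k, f i = f j → i = j) →
        (∀ n < k, dist (GaussianInt.toComplex (f n)) (GaussianInt.toComplex (f (n + 1))) ≤ D) →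
        ∃ π : GaussianInt, Prime π ∧ (π.norm : ℝ) ≤ Real.exp (D ^ C) ∧
          ∀ a, ∃ n ≤ k, π ∣ f n - a) ∧
    ∃ c : ℝ, 0 < c ∧ ¬ ∃ γ : ℕ → {z : GaussianInt // Prime z}, Function.Injective γ ∧
      ∀ n, dist (GaussianInt.toComplex (γ n)) (GaussianInt.toComplex (γ (n + 1))) ≤
        Real.log (Real.log (‖GaussianInt.toComplex (γ n)‖ + 16)) ^ c := by
  refine ⟨?_, N015.growing_steps⟩
  obtain ⟨a, ha⟩ := N015.component_bound
  obtain ⟨b, hb⟩ := N015.sieve_bound
  refine ⟨a + b, fun D hD => ⟨fun K => ?_, fun k hk f hinj hstep => ?_⟩⟩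
  · obtain ⟨h1, h2⟩ := ha D hD K
    have h3 : D ^ a ≤ D ^ (a + b) := pow_le_pow_right₀ (by linarith) (by omega)
    rw [← h1.cast_ncard_eq]
    exact Nat.cast_le.2 (Nat.le_floor (h2.trans (Real.exp_le_exp.2 (Real.exp_le_exp.2 h3))))
  · have h3 : D ^ b ≤ D ^ (a + b) := pow_le_pow_right₀ (by linarith) (by omega)
    obtain ⟨π, h4, h5, h6⟩ := hb D hD k
      ((Real.exp_le_exp.2 (Real.exp_le_exp.2 h3)).trans hk) f hinj hstep
    exact ⟨π, h4, h5.trans (Real.exp_le_exp.2 h3), h6⟩

end Vale.Agent.Results.P015.A0EffectiveMoat
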